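import Vale.Agent.P343.H741.Iface
import Mathlib.Data.Set.Card.Arithmetic

/-!
P343, Q1, row S: one level of the recursion for nondeterministic co-machines.
-/

namespace Vale.Agent.P343.H649

open Vale.Agent.P343.Box Vale.Agent.P343.H741

variable {V Q : Type} {n : ℕ}

/-- The box of a word. -/
def wd {α : Type} (G : α → NB Q) (w : List α) : NB Q := (w.map G).prod

theorem wd_append {α : Type} (G : α → NB Q) (w w' : List α) :
    wd G (w ++ w') = wd G w * wd G w' := by
  unfold wd
  rw [List.map_append, List.prod_append]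

theorem wd_nil {α : Type} (G : α → NB Q) : wd G [] = 1 := rfl

theorem wd_cons {α : Type} (G : α → NB Q) (a : α) (w : List α) :
    wd G (a :: w) = G a * wd G w := by
  unfold wd
  rw [List.map_cons, List.prod_cons]

theorem wd_single {α : Type} (G : α → NB Q) (a : α) : wd G [a] = G a := by
  rw [wd_cons, wd_nil, mul_one]

theorem wd_rep {α : Type} (G : α → NB Q) (w : List α) (k : ℕ) :
    wd G (rep w k) = wd G w ^ k := by
  induction k with
  | zero => rfl
  | succ k ih => rw [rep, wd_append, ih, pow_succ']

/-! ### The chain of words -/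

/-- An exponent that makes a box idempotent. -/
noncomputable def iex [Finite Q] (x : NB Q) : ℕ := Classical.choose (exists_pow_idem x)

theorem iex_pos [Finite Q] (x : NB Q) : 0 < iex x := (Classical.choose_spec (exists_pow_idem x)).1

theorem iex_idem [Finite Q] (x : NB Q) : x ^ iex x * x ^ iex x = x ^ iex x :=
  (Classical.choose_spec (exists_pow_idem x)).2

/-- The chain of words that starts with the identity letter. -/
noncomputable def chn [Finite Q] (g : Sym (Ext V n) → NB Q) : ℕ → List (Sym (Ext V n))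
  | 0 => [idSym (Ext V n)]
  | c + 1 => rep (chn g c ++ [edgeN V n c] ++ chn g c)
      (iex (wd g (chn g c ++ [edgeN V n c] ++ chn g c)))

theorem chn_zero [Finite Q] (g : Sym (Ext V n) → NB Q) : chn g 0 = [idSym (Ext V n)] := rfl

theorem chn_succ [Finite Q] (g : Sym (Ext V n) → NB Q) (c : ℕ) :
    chn g (c + 1) = rep (chn g c ++ [edgeN V n c] ++ chn g c)
      (iex (wd g (chn g c ++ [edgeN V n c] ++ chn g c))) := rfl

section

variable [Finite Q] {g : Sym (Ext V n) → NB Q}
  (hid : g (idSym (Ext V n)) * g (idSym (Ext V n)) = g (idSym (Ext V n)))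

include hid

theorem chn_idem (c : ℕ) : wd g (chn g c) * wd g (chn g c) = wd g (chn g c) := by
  cases c with
  | zero =>
    rw [chn_zero, wd_single]
    exact hid
  | succ c =>
    rw [chn_succ, wd_rep]
    exact iex_idem _

theorem chn_left (c : ℕ) : wd g (chn g c) * wd g (chn g (c + 1)) = wd g (chn g (c + 1)) := by
  rw [chn_succ, wd_rep]
  have hk := iex_pos (wd g (chn g c ++ [edgeN V n c] ++ chn g c))
  obtain ⟨k, hk'⟩ := Nat.exists_eq_succ_of_ne_zero (Nat.pos_iff_ne_zero.1 hk)
  rw [hk', pow_succ', wd_append, wd_append]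
  simp only [← mul_assoc]
  rw [chn_idem hid]

theorem chn_right (c : ℕ) : wd g (chn g (c + 1)) * wd g (chn g c) = wd g (chn g (c + 1)) := by
  rw [chn_succ, wd_rep]
  have hk := iex_pos (wd g (chn g c ++ [edgeN V n c] ++ chn g c))
  obtain ⟨k, hk'⟩ := Nat.exists_eq_succ_of_ne_zero (Nat.pos_iff_ne_zero.1 hk)
  rw [hk', pow_succ, wd_append, wd_append]
  simp only [mul_assoc]
  rw [chn_idem hid]

end

theorem acts_chn [Finite Q] (g : Sym (Ext V n) → NB Q) (hn : 0 < n) (c : ℕ) (S : Set (Ext V n)) :
    acts (chn g c) S = addE (fun i j => i.val * n + j.val < c) S := by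
  induction c generalizing S with
  | zero =>
    rw [chn_zero, acts_cons, acts_nil]
    ext y
    rw [mem_act]
    simp [addE, idSym]
  | succ c ih =>
    rw [chn_succ]
    apply acts_rep _ _ (iex_pos _)
    intro S
    rw [acts_append, acts_append, ih, ih, acts_cons, acts_nil, act_edgeN, addE_addE, addE_addE]
    apply addE_congr
    intro i j
    have h1 : (i.val = c / n ∧ j.val = c % n) ↔ i.val * n + j.val = c := by
      constructor
      · rintro ⟨h1, h2⟩
        rw [h1, h2]
        have := Nat.div_add_mod c n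
        rw [Nat.mul_comm] at this
        exact this
      · intro h
        have hj := j.2
        constructor
        · rw [← h, Nat.add_comm, Nat.add_mul_div_right _ _ hn, Nat.div_eq_of_lt hj, Nat.zero_add]
        · rw [← h, Nat.add_comm, Nat.add_mul_mod_self_right, Nat.mod_eq_of_lt hj]
    rw [h1]
    omega

/-! ### Local words -/

section

variable {g : Sym V → NB Q} {e : NB Q}

theorem wd_left (hl : ∀ s, e * g s = g s) {w : List (Sym V)} (hw : w ≠ []) :
    e * wd g w = wd g w := by
  cases w with
  | nil => exact absurd rfl hw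
  | cons a w => rw [wd_cons, ← mul_assoc, hl]

theorem wd_right (hr : ∀ s, g s * e = g s) {w : List (Sym V)} (hw : w ≠ []) :
    wd g w * e = wd g w := by
  induction w with
  | nil => exact absurd rfl hw
  | cons a w ih =>
    rw [wd_cons, mul_assoc]
    by_cases h : w = []
    · subst h
      rw [wd_nil, one_mul, mul_one, hr]
    · rw [ih h]

/-- A state that crosses every letter of a word crosses the word. -/
theorem wd_cross (hP : PtsFacts Q) (he : e * e = e) (hl : ∀ s, e * g s = g s)
    (hr : ∀ s, g s * e = g s) {d : Bool} {y : Q} {w : List (Sym V)} (hw : w ≠ [])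
    (h : ∀ s ∈ w, X e (g s) d y y) : X e (wd g w) d y y := by
  induction w with
  | nil => exact absurd rfl hw
  | cons a w ih =>
    by_cases h0 : w = []
    · subst h0
      rw [wd_single]
      exact h a (by simp)
    · rw [wd_cons]
      exact hP.comp he (hl a) (hr a) (wd_left hl h0) (wd_right hr h0) (h a (by simp))
        (ih h0 fun s hs => h s (by simp [hs]))

end

theorem chn_ne_nil [Finite Q] (g : Sym (Ext V n) → NB Q) (c : ℕ) : chn g c ≠ [] := by
  induction c with
  | zero => rw [chn_zero]; simp
  | succ c ih =>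
    rw [chn_succ]
    have hk := iex_pos (wd g (chn g c ++ [edgeN V n c] ++ chn g c))
    obtain ⟨k, hk'⟩ := Nat.exists_eq_succ_of_ne_zero (Nat.pos_iff_ne_zero.1 hk)
    rw [hk', rep]
    simp

theorem mem_rep {α : Type} {w : List α} {k : ℕ} {a : α} (h : a ∈ rep w k) : a ∈ w := by
  induction k with
  | zero => simp [rep] at h
  | succ k ih =>
    rw [rep, List.mem_append] at h
    exact h.elim id ih

theorem mem_chn [Finite Q] {g : Sym (Ext V n) → NB Q} {c : ℕ} {s : Sym (Ext V n)}
    (h : s ∈ chn g c) : s = idSym (Ext V n) ∨ ∃ c', s = edgeN V n c' := by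
  induction c with
  | zero =>
    rw [chn_zero, List.mem_singleton] at h
    exact Or.inl h
  | succ c ih =>
    rw [chn_succ] at h
    have h1 := mem_rep h
    rw [List.mem_append, List.mem_append, List.mem_singleton] at h1
    rcases h1 with (h1 | h1) | h1
    · exact ih h1
    · exact Or.inr ⟨c, h1⟩
    · exact ih h1

/-! ### Pieces -/

/-- Every toggle is expanded to the word of its bit. -/
theorem pv_map {α T' : Type} (g : α → NB Q) (L0 L1 : List α) (x : T' → Bool)
    (c : List (α ⊕ T')) :
    pv (wd g L0) (wd g L1) x (c.map (Sum.map g id)) = wd g (expand L0 L1 x c) := by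
  induction c with
  | nil => rfl
  | cons p c ih =>
    have h1 : expand L0 L1 x (p :: c) =
        Sum.elim (fun s => [s]) (fun t => if x t then L1 else L0) p ++ expand L0 L1 x c := by
      simp [expand]
    rw [h1, wd_append, ← ih]
    unfold pv
    rw [List.map_cons, List.map_cons, List.prod_cons]
    congr 1
    rcases p with a | t
    · simp [wd_single]
    · simp only [Sum.map_inr, id_eq, Sum.elim_inr]
      split <;> rfl

theorem pv_append {T' : Type} (e f : NB Q) (x : T' → Bool) (L L' : List (NB Q ⊕ T')) :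
    pv e f x (L ++ L') = pv e f x L * pv e f x L' := by
  unfold pv
  rw [List.map_append, List.prod_append]

theorem pv_single {T' : Type} (e f : NB Q) (x : T' → Bool) (b : NB Q) :
    pv e f x [Sum.inl b] = b := by
  simp [pv]

theorem countP_map {α T' : Type} (g : α → NB Q) (t : T') (c : List (α ⊕ T')) :
    (c.map (Sum.map g id)).countP (isT t) = c.countP (isT t) := by
  rw [List.countP_map]
  congr 1
  funext p
  rcases p with a | t'
  · simp [isT]
  · simp [isT]

/-- Products of local boxes. -/
theorem prod_local {α : Type} {e : NB Q} (he : e * e = e) (F : α → NB Q) (L : List α) :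
    e * (L.map fun a => e * F a * e).prod = e * (L.map fun a => F a * e).prod := by
  induction L with
  | nil => rfl
  | cons a L ih =>
    rw [List.map_cons, List.map_cons, List.prod_cons, List.prod_cons]
    calc e * (e * F a * e * (L.map fun a => e * F a * e).prod)
        = (e * e) * F a * (e * (L.map fun a => e * F a * e).prod) := by simp only [mul_assoc]
      _ = e * F a * (e * (L.map fun a => F a * e).prod) := by rw [he, ih]
      _ = e * (F a * e * (L.map fun a => F a * e).prod) := by simp only [mul_assoc]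

theorem wd_flatMap {α β : Type} (g : α → NB Q) (F : β → List α) (L : List β) :
    wd g (L.flatMap F) = (L.map fun b => wd g (F b)).prod := by
  induction L with
  | nil => rfl
  | cons a L ih => rw [List.flatMap_cons, wd_append, ih, List.map_cons, List.prod_cons]

/-- Passage to the local automaton. -/
theorem localizeN {V W : Type} {s0 f0 : V} {ι : V → W} (hι : Function.Injective ι)
    (M : BAut (Sym W) Q) (hM : ∀ w, M.Acc w ↔ ¬ RLang (ι s0) (ι f0) w)
    (Y : List (Sym W)) (m : Sym V → List (Sym W)) (he : wd M.G Y * wd M.G Y = wd M.G Y)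
    (hY : ∀ S : Set V, acts Y (ι '' S) = ι '' S)
    (hm : ∀ (a : Sym V) (S : Set V), acts (m a) (ι '' S) = ι '' (a.act S)) (ws : List (Sym V)) :
    (BAut.mk (fun a => wd M.G Y * wd M.G (m a) * wd M.G Y) (M.bl * wd M.G Y) M.br
      M.start M.fin).Acc ws ↔ ¬ RLang s0 f0 ws := by
  have h1 : (BAut.mk (fun a => wd M.G Y * wd M.G (m a) * wd M.G Y) (M.bl * wd M.G Y) M.br
      M.start M.fin).Acc ws ↔ M.Acc (Y ++ ws.flatMap (fun a => m a ++ Y)) := by
    unfold BAut.Acc
    have h2 : M.bl * wd M.G Y *
        (ws.map (fun a => wd M.G Y * wd M.G (m a) * wd M.G Y)).prod * M.br =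
        M.bl * ((Y ++ ws.flatMap (fun a => m a ++ Y)).map M.G).prod * M.br := by
      have h3 : ((Y ++ ws.flatMap (fun a => m a ++ Y)).map M.G).prod =
          wd M.G Y * (ws.map fun a => wd M.G (m a) * wd M.G Y).prod := by
        change wd M.G (Y ++ ws.flatMap (fun a => m a ++ Y)) = _
        rw [wd_append, wd_flatMap]
        simp only [wd_append]
      rw [h3, ← prod_local he (fun a => wd M.G (m a)) ws, mul_assoc M.bl]
    show (M.bl * wd M.G Y * (ws.map (fun a => wd M.G Y * wd M.G (m a) * wd M.G Y)).prod * M.br)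
      (false, M.start) (false, M.fin) ↔ _
    rw [h2]
  rw [h1, hM]
  unfold RLang
  rw [← Set.image_singleton, acts_macro ι Y m hY hm]
  rw [hι.mem_set_image]

/-! ### Counting along the chain -/

/-- The classes touched by the edges. -/
def UU (Act : Bool × Ext V n → Set (Bool × Set Q)) : Set (Bool × Set Q) :=
  ⋃ i : Fin n, Act (false, trkW V i) ∪ Act (true, trkP V i)

theorem ncard_UU [Finite Q] {Act : Bool × Ext V n → Set (Bool × Set Q)} {a : ℕ}
    (h : ∀ t, (Act t).ncard ≤ a) : (UU Act).ncard ≤ n * (2 * a) := by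
  classical
  have hfin : ∀ s : Set (Bool × Set Q), s.Finite := fun s => Set.toFinite s
  unfold UU
  have h1 : (⋃ i : Fin n, Act (false, trkW V i) ∪ Act (true, trkP V i)).ncard ≤
      ∑ i : Fin n, (Act (false, trkW V i) ∪ Act (true, trkP V i)).ncard := by
    have := Finset.set_ncard_biUnion_le (Finset.univ : Finset (Fin n))
      (fun i => Act (false, trkW V i) ∪ Act (true, trkP V i))
    simpa using this
  refine h1.trans ?_
  calc ∑ i : Fin n, (Act (false, trkW V i) ∪ Act (true, trkP V i)).ncard
      ≤ ∑ _i : Fin n, 2 * a := by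
        refine Finset.sum_le_sum fun i _ => ?_
        refine (Set.ncard_union_le _ _).trans ?_
        have h1 := h (false, trkW V i)
        have h2 := h (true, trkP V i)
        omega
    _ = n * (2 * a) := by simp

/-- **Row S** -/
theorem step (hC : CountStmt) (hG : ToggleStmt) (hPt : ∀ (Q : Type) [Finite Q], PtsFacts Q) :
    StepStmt := by
  classical
  intro V _ s0 f0 n hn Q _ M hM a hNorm
  obtain ⟨hid, hl, hr, Act, hAct, hpass⟩ := hNorm
  have hP := hPt Q
  set g := M.G with hg
  set e0 := g (idSym (Ext V n)) with he0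
  set U := UU Act with hU
  -- the states whose class is not in `U` cross the edges
  have hedge : ∀ d y, Pt e0 d y → (d, cl e0 d y) ∉ U → ∀ c, X e0 (g (edgeN V n c)) d y y := by
    intro d y hy hyU c
    refine hpass (edgeN V n c) (fun _ => rfl) d y hy ?_ ?_
    · intro v hv hm
      obtain ⟨i, rfl, _⟩ := isW_iff.1 hv
      exact hyU (Set.mem_iUnion.2 ⟨i, Or.inl hm⟩)
    · intro v hv hm
      obtain ⟨i, rfl, _⟩ := isP_iff.1 hv
      exact hyU (Set.mem_iUnion.2 ⟨i, Or.inr hm⟩)
  have hcross : ∀ d y, Pt e0 d y → (d, cl e0 d y) ∉ U → ∀ c, X e0 (wd g (chn g c)) d y y := by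
    intro d y hy hyU c
    refine wd_cross hP hid hl hr (chn_ne_nil g c) fun s hs => ?_
    rcases mem_chn hs with rfl | ⟨c', rfl⟩
    · exact hy
    · exact hedge d y hy hyU c'
  have hloc1 : ∀ c, e0 * wd g (chn g c) = wd g (chn g c) := fun c => wd_left hl (chn_ne_nil g c)
  have hloc2 : ∀ c, wd g (chn g c) * e0 = wd g (chn g c) := fun c => wd_right hr (chn_ne_nil g c)
  have hLost : ∀ c, Lost (wd g (chn g c)) (wd g (chn g (c + 1))) ⊆ UC e0 U (wd g (chn g c)) := by
    rintro c ⟨d, κ⟩ ⟨x, hx, hκ, hnX⟩
    simp only at hx hκ hnX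
    subst hκ
    refine ⟨⟨x, hx, rfl⟩, ?_⟩
    intro y hy hy0
    by_contra hyU
    apply hnX
    have h1 := hP.env (hloc1 c) (hloc2 c) (hcross d y hy0 hyU (c + 1))
    exact hP.invR (chn_idem hid c) (chn_left hid c) (chn_right hid c)
      (hP.invL (chn_idem hid c) (chn_left hid c) (chn_right hid c) hy.1 h1) hy.2
  have hcount : ∀ c, 2 * (UC e0 U (wd g (chn g (c + 1)))).ncard +
      (Lost (wd g (chn g c)) (wd g (chn g (c + 1)))).ncard ≤
      2 * (UC e0 U (wd g (chn g c))).ncard := fun c =>
    hC Q e0 _ _ U (chn_idem hid c) (chn_idem hid (c + 1)) (chn_left hid c) (chn_right hid c)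
      (hLost c)
  obtain ⟨c, hc, hdrop⟩ := row_select (m := n * n) (Nat.mul_pos hn hn)
    (fun c => 2 * (UC e0 U (wd g (chn g c))).ncard) (fun c => by
      have := hcount c
      omega)
  have hU0 : (UC e0 U (wd g (chn g 0))).ncard ≤ U.ncard := by
    refine Set.ncard_le_ncard ?_ (Set.toFinite _)
    rintro ⟨d, κ⟩ ⟨⟨x, hx, hκ⟩, h2⟩
    simp only at hx hκ h2
    rw [chn_zero, wd_single] at hx hκ
    rw [hκ]
    exact h2 x (by rw [hκ]; exact ⟨hx, hx⟩) hx
  have hUcard : U.ncard ≤ n * (2 * a) := ncard_UU hAct
  have hi : c / n < n := Nat.div_lt_of_lt_mul hc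
  have hj : c % n < n := Nat.mod_lt _ hn
  have hcn : c / n * n + c % n = c := by
    have := Nat.div_add_mod c n
    rwa [Nat.mul_comm] at this
  set L0 := chn g c with hL0
  set L1 := chn g (c + 1) with hL1
  set e := wd g L0 with he
  set f := wd g L1 with hf
  have hLcard : n * (2 * (Lost e f).ncard) ≤ 8 * a := by
    have h1 : (Lost e f).ncard ≤ 2 * (UC e0 U e).ncard - 2 * (UC e0 U f).ncard := by
      have h0 : 2 * (UC e0 U f).ncard + (Lost e f).ncard ≤ 2 * (UC e0 U e).ncard := hcount c
      clear * - h0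
      omega
    have h2 : n * (n * (Lost e f).ncard) ≤ n * (4 * a) := by
      calc n * (n * (Lost e f).ncard) = n * n * (Lost e f).ncard := by ring
        _ ≤ n * n * (2 * (UC e0 U e).ncard - 2 * (UC e0 U f).ncard) := Nat.mul_le_mul_left _ h1
        _ ≤ 2 * (UC e0 U (wd g (chn g 0))).ncard := hdrop
        _ ≤ 2 * (n * (2 * a)) := Nat.mul_le_mul_left _ (hU0.trans hUcard)
        _ = n * (4 * a) := by ring
    have h3 := Nat.le_of_mul_le_mul_left h2 hn
    calc n * (2 * (Lost e f).ncard) = 2 * (n * (Lost e f).ncard) := by ring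
      _ ≤ 2 * (4 * a) := Nat.mul_le_mul_left _ h3
      _ = 8 * a := by ring
  -- the words of the letters
  let C : List (Sym (Ext V n) ⊕ (Fin 3 × V)) := cellP ⟨c / n, hi⟩ ⟨c % n, hj⟩ Finset.univ.toList
  have hCt : ∀ t, C.countP (isT t) = 1 := fun t =>
    countP_isT_cellP _ _ _ (Finset.nodup_toList _) (fun v => Finset.mem_toList.2 (Finset.mem_univ v)) t
  have hact : ∀ (s : Sym V) (A : Set V),
      acts (expand L0 L1 (bits s) C) (Sum.inl '' A) = Sum.inl '' (s.act A) := by
    intro s A
    apply acts_cellP (P0 := fun i j => i.val * n + j.val < c)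
      (P1 := fun i j => i.val * n + j.val < c + 1)
      (fun S => acts_chn g hn c S) (fun S => acts_chn g hn (c + 1) S)
    · simp only [hcn]; omega
    · simp only [hcn]; omega
    · intro v
      exact Finset.mem_toList.2 (Finset.mem_univ v)
  let w : Sym V → List (Sym (Ext V n)) := fun s => expand L0 L1 (bits s) C
  let w0 := w (idSym V)
  obtain ⟨k, hk, hidem⟩ := exists_pow_idem (wd g w0)
  set E := wd g (rep w0 k) with hE
  have hEpow : E = wd g w0 ^ k := wd_rep _ _ _
  have hEE : E * E = E := by rw [hEpow]; exact hidem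
  let m : Sym V → List (Sym (Ext V n)) := fun s => w s ++ rep w0 (k - 1)
  have hm0 : wd g (m (idSym V)) = E := by
    show wd g (w0 ++ rep w0 (k - 1)) = E
    rw [wd_append, wd_rep, ← pow_succ', hEpow]
    congr 1
    omega
  have hact0 : ∀ S : Set V, acts w0 (Sum.inl '' S) = Sum.inl '' S := by
    intro S
    show acts (expand L0 L1 (bits (idSym V)) C) (Sum.inl '' S) = Sum.inl '' S
    rw [hact, idSym_act]
  have hactY : ∀ S : Set V, acts (rep w0 k) (Sum.inl '' S) = (Sum.inl '' S : Set (Ext V n)) :=
    fun S => acts_rep1 _ _ hact0 k S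
  have hactm : ∀ (s : Sym V) (S : Set V),
      acts (m s) (Sum.inl '' S) = (Sum.inl '' (s.act S) : Set (Ext V n)) := by
    intro s S
    show acts (w s ++ rep w0 (k - 1)) (Sum.inl '' S) = _
    rw [acts_append1]
    show acts (rep w0 (k - 1)) (acts (expand L0 L1 (bits s) C) (Sum.inl '' S)) = _
    rw [hact, acts_rep1 _ _ hact0]
  -- the pieces
  let Lp : List (NB Q ⊕ (Fin 3 × V)) :=
    [Sum.inl E] ++ C.map (Sum.map g id) ++ ([Sum.inl (wd g (rep w0 (k - 1)))] ++ [Sum.inl E])
  have hLp : ∀ s : Sym V, pv e f (bits s) Lp = E * wd g (m s) * E := by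
    intro s
    show pv e f (bits s) ([Sum.inl E] ++ C.map (Sum.map g id) ++
      ([Sum.inl (wd g (rep w0 (k - 1)))] ++ [Sum.inl E])) = _
    simp only [pv_append, pv_single]
    rw [he, hf, pv_map]
    show _ = E * wd g (expand L0 L1 (bits s) C ++ rep w0 (k - 1)) * E
    rw [wd_append]
    simp only [mul_assoc]
  have hEm : E * wd g (m (idSym V)) * E = E := by rw [hm0, hEE, hEE]
  obtain ⟨Act', hAct', hcrossT⟩ := hG Q (Fin 3 × V) e f Lp (bits (idSym V)) (chn_idem hid c)
    (chn_idem hid (c + 1)) (chn_left hid c) (chn_right hid c) (by simp [Lp])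
    (by rw [hLp, hEm, hEE]) (by
      intro t _
      show ([Sum.inl E] ++ C.map (Sum.map g id) ++
        ([Sum.inl (wd g (rep w0 (k - 1)))] ++ [Sum.inl E])).countP (isT t) ≤ 1
      rw [List.countP_append, List.countP_append, List.countP_append, countP_map, hCt]
      simp [isT])
  refine ⟨⟨fun s => E * wd g (m s) * E, M.bl * E, M.br, M.start, M.fin⟩,
    2 * (Lost e f).ncard, ⟨?_, ?_, ?_, ?_⟩, hLcard, ?_⟩
  · show E * wd g (m (idSym V)) * E * (E * wd g (m (idSym V)) * E) = E * wd g (m (idSym V)) * E
    rw [hEm, hEE]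
  · intro s
    show E * wd g (m (idSym V)) * E * (E * wd g (m s) * E) = E * wd g (m s) * E
    rw [hEm]
    simp only [← mul_assoc]
    rw [hEE]
  · intro s
    show E * wd g (m s) * E * (E * wd g (m (idSym V)) * E) = E * wd g (m s) * E
    rw [hEm, mul_assoc, hEE]
  · refine ⟨fun t => Act' (if t.1 then 1 else 0, t.2), ?_, ?_⟩
    · rintro ⟨b, v⟩
      refine hAct' _ ?_
      rw [bits_idSym]
      cases b <;> simp
    · intro s hkeep d y hy hsrc hdst
      have hy' : Pt (pv e f (bits (idSym V)) Lp) d y := by
        rw [hLp]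
        exact hy
      have h1 := hcrossT (bits s) ?_ d y hy' ?_
      · rw [hLp, hLp] at h1
        exact h1
      · rintro ⟨i, v⟩ ht
        rw [bits_idSym] at ht
        simp only [ne_eq, decide_eq_true_eq] at ht
        unfold bits
        rw [if_neg ht.1, if_neg ht.2]
        exact hkeep v
      · rintro ⟨i, v⟩ ht1 ht2
        rw [hLp]
        rw [bits_idSym] at ht1
        simp only [ne_eq, decide_eq_false_iff_not, not_and_or, not_not] at ht1
        rcases ht1 with rfl | rfl
        · have h3 : s.src v = true := by simpa [bits] using ht2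
          have h4 := hsrc v h3
          simpa using h4
        · have h3 : s.dst v = true := by simpa [bits] using ht2
          have h4 := hdst v h3
          simpa using h4
  · exact localizeN Sum.inl_injective M hM (rep w0 k) m hEE hactY hactm

end Vale.Agent.P343.H649
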